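import Vale.Agent.P011U.Top
import Vale.Agent.P011U.IF3
import Vale.Agent.P011UB.Root
import Vale.Agent.P011UA.A0
import Mathlib.LinearAlgebra.Matrix.Charpoly.Univ
import Mathlib.RingTheory.Polynomial.IsIntegral
import Mathlib.FieldTheory.RatFunc.IntermediateField
import Mathlib.FieldTheory.Galois.Infinite
import Mathlib.NumberTheory.NumberField.InfinitePlace.Embeddings

/-!
The group of rational points is not torsion modulo its centre.
-/

set_option autoImplicit false
set_option linter.all false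

namespace Vale.Agent.P011UNC

open Matrix Polynomial Vale.Agent.P011L Vale.Agent.P011LZ Vale.Agent.P183CH Vale.Agent.P011U

theorem char_dvd {F : Type} [CommRing F] {n : Type} [Fintype n] [DecidableEq n]
    (A : Matrix n n F) {m : ℕ} (h : A ^ m = 1) :
    A.charpoly ∣ (X ^ m - 1) ^ Fintype.card n := by
  obtain ⟨B, hB⟩ := (scalar_commute (n := n) (X : F[X]) (fun _ => Commute.all _ _)
    ((C : F →+* F[X]).mapMatrix A)).sub_dvd_pow_sub_pow m
  rw [← map_pow (C : F →+* F[X]).mapMatrix, h, map_one, ← map_pow, ← map_one (scalar n),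
    ← map_sub] at hB
  have := congrArg det hB
  rw [det_mul, scalar_apply, det_diagonal, Finset.prod_const, Finset.card_univ] at this
  exact ⟨_, this⟩

theorem cyc_monic (R : Type) [CommRing R] {m : ℕ} (hm : 0 < m) (n : ℕ) :
    ((X ^ m - 1 : R[X]) ^ n).Monic := (monic_X_pow_sub_C (1 : R) hm.ne').pow n

theorem cyc_map {R S : Type} [CommRing R] [CommRing S] (f : R →+* S) (m n : ℕ) :
    ((X ^ m - 1 : R[X]) ^ n).map f = (X ^ m - 1) ^ n := by simp

/-- the constants of a function field -/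
theorem const_fin (F₀ F : Type) [Field F₀] [Finite F₀] [Field F] [Algebra (RatFunc F₀) F]
    [FiniteDimensional (RatFunc F₀) F] [Algebra F₀ F] [IsScalarTower F₀ (RatFunc F₀) F] :
    {x : F | IsIntegral F₀ x}.Finite := by
  classical
  refine (bUnion_roots_finite (algebraMap (RatFunc F₀) F) (Module.finrank (RatFunc F₀) F)
    (Set.finite_range (RatFunc.C : F₀ →+* RatFunc F₀))).subset fun x hx => ?_
  have h1 : IsIntegral (RatFunc F₀) x := IsIntegral.of_finite _ x
  simp only [Set.mem_iUnion]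
  refine ⟨minpoly _ x, ⟨minpoly.natDegree_le x, fun i => by_contra fun c => ?_⟩, ?_⟩
  · exact RatFunc.transcendental_of_ne_C _ (fun ⟨a, e⟩ => c ⟨a, e.symm⟩)
      (isIntegral_coeff_of_dvd _ _ (minpoly.monic hx) (minpoly.monic h1)
        (minpoly.dvd_map_of_isScalarTower F₀ _ x) i).isAlgebraic
  · rw [Finset.mem_coe, Multiset.mem_toFinset, mem_roots ((minpoly.monic h1).map _).ne_zero,
      IsRoot, eval_map_algebraMap]
    exact minpoly.aeval _ x

/-- the coefficients of the divisors of bounded degree lie in a finite set -/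
theorem coef_fin {F : Type} [Field F] (h : Glob F) (n : ℕ) : ∃ S : Set F, S.Finite ∧
    ∀ (p : F[X]) (m l : ℕ), p.Monic → p.natDegree ≤ n → 0 < m → p ∣ (X ^ m - 1) ^ l →
      ∀ i, p.coeff i ∈ S := by
  rcases h with h | ⟨F₀, _, _, _, h⟩
  · refine ⟨_, NumberField.Embeddings.finite_of_norm_le F ℂ (max 1 1 ^ n * n.choose (n / 2)),
      fun p m l h1 h2 h3 h4 i => ⟨isIntegral_coeff_of_dvd _ _ (cyc_monic ℤ h3 l) h1
        (by rwa [cyc_map]) i, fun f => ?_⟩⟩
    rw [← coeff_map]
    refine coeff_bdd_of_roots_le f h1 (IsAlgClosed.splits _) h2 (fun z hz => ?_) i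
    have h5 := (isRoot_of_mem_roots hz).dvd (map_dvd f h4)
    rw [cyc_map, IsRoot, eval_pow, eval_sub, eval_pow, eval_X, eval_one] at h5
    have h6 := congrArg norm (sub_eq_zero.1 (eq_zero_of_pow_eq_zero h5))
    rw [norm_pow, norm_one] at h6
    exact ((pow_eq_one_iff_of_nonneg (norm_nonneg z) h3.ne').1 h6).le
  · letI : Algebra F₀ F :=
      ((algebraMap (RatFunc F₀) F).comp (algebraMap F₀ (RatFunc F₀))).toAlgebra
    haveI : IsScalarTower F₀ (RatFunc F₀) F := IsScalarTower.of_algebraMap_eq fun _ => rfl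
    exact ⟨_, const_fin F₀ F, fun p m l h1 h2 h3 h4 i =>
      isIntegral_coeff_of_dvd _ _ (cyc_monic F₀ h3 l) h1 (by rwa [cyc_map]) i⟩

variable {k K : Type} [Field k] [Field K] [Algebra k K] {D : Chev}

theorem cent_tor {z : D.grp K} (h : ∀ g, z * g = g * z) : ∃ m : ℕ, 0 < m ∧ z ^ m = 1 := by
  have hΓ : (GG D K).Ok := GG_ok
  have hR := Chev.R_ok D
  have h1 : ∀ g, z * g * z⁻¹ = g := fun g => by rw [h, mul_inv_cancel_right]
  have ht := P011UB.mem_T_of_nm hΓ hR (g := z) (fun u hu => by rwa [h1]) fun u hu => by rwa [h1]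
  exact ⟨_, Int.natAbs_pos.2 hR.det, pow_natAbs_eq_one.2 (hΓ.det_chi hR ht fun i =>
    hΓ.chi_eq hR (hR.simple i) ht (c := 1) (h1 _))⟩

theorem cent_of (T : Tw k (D.grp K)) (den : ∀ p : MvPolynomial (Fin D.n × Fin D.n) K,
    (∀ g ∈ T.fix, MvPolynomial.eval (fun e => g.1.1 e.1 e.2) p = 0) →
      ∀ g : D.grp K, MvPolynomial.eval (fun e => g.1.1 e.1 e.2) p = 0)
    {z : T.fix} (hz : z ∈ Subgroup.center T.fix) (g : D.grp K) : z.1 * g = g * z.1 := by
  have key : ∀ (g : D.grp K) a b, MvPolynomial.eval (fun e => g.1.1 e.1 e.2)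
      (∑ c, (MvPolynomial.C (z.1.1.1 a c) * MvPolynomial.X (c, b) -
        MvPolynomial.X (a, c) * MvPolynomial.C (z.1.1.1 c b))) =
      (z.1 * g).1.1 a b - (g * z.1).1.1 a b := fun g a b => by
    simp [mul_apply]
  refine Subtype.ext (Units.ext (Matrix.ext fun a b => sub_eq_zero.1 ?_))
  rw [← key]
  refine den _ (fun x hx => ?_) g
  rw [key, show z.1 * x = x * z.1 from
    (congrArg Subtype.val (Subgroup.mem_center_iff.1 hz ⟨x, hx⟩)).symm, sub_self]

theorem zpow_fin [Infinite K] {m : ℤ} {S : Set K} (hS : S.Finite)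
    (h : ∀ t : Kˣ, ((t ^ m : Kˣ) : K) ∈ S) : m = 0 := by
  let f : Kˣ →* Kˣ := zpowGroupHom m
  haveI : Finite f.range := Set.Finite.to_subtype
    ((hS.preimage Units.val_injective.injOn).subset fun _ ⟨t, e⟩ => e ▸ h t)
  refine (mul_eq_zero.1 (P011UB.zpow_eq (k := K) (m := m * Nat.card f.range) fun t => ?_)).resolve_right
    (Int.natCast_ne_zero.2 Nat.card_pos.ne')
  rw [_root_.zpow_mul, zpow_natCast]
  exact congrArg Subtype.val (pow_card_eq_one' (x := (⟨_, t, rfl⟩ : f.range)))

theorem nc (den : DEN) : NC := by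
  classical
  intro k K _ _ _ _ D hk hD T
  haveI := Glob.inf hk
  haveI : Infinite K := .of_injective _ (algebraMap k K).injective
  have den := den k K D hD T
  by_contra hc
  push Not at hc
  obtain ⟨F, hF, hT⟩ := T.cont
  obtain ⟨S, hS, h1⟩ := coef_fin (Glob.fin (L := F) hk) D.n
  have h2 : ∀ g ∈ T.fix, ∀ i, g.1.1.charpoly.coeff i ∈ algebraMap F K '' S := fun g hg i => by
    have h3 : ∀ a b, g.1.1 a b ∈ F := fun a b => by
      rw [← InfiniteGalois.fixedField_fixingSubgroup F, IntermediateField.mem_fixedField_iff]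
      intro σ hσ
      have := hT σ (fun x hx => hσ ⟨x, hx⟩) g
      rw [hg σ] at this
      exact (congrFun (congrFun this a) b).symm
    let A : Matrix (Fin D.n) (Fin D.n) F := fun a b => ⟨_, h3 a b⟩
    have hA : g.1.1 = A.map (algebraMap F K) := rfl
    obtain ⟨m, hm, hz⟩ := hc ⟨g, hg⟩
    obtain ⟨l, hl, e⟩ := cent_tor (cent_of T den hz)
    have h4 : A ^ (m * l) = 1 := by
      apply map_injective (algebraMap F K).injective
      show (algebraMap F K).mapMatrix _ = (algebraMap F K).mapMatrix _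
      rw [map_pow, map_one, pow_mul]
      exact congrArg (fun x : D.grp K => x.1.1) e
    rw [hA, charpoly_map, coeff_map]
    exact ⟨_, h1 _ _ _ (charpoly_monic A) (by simp) (mul_pos hm hl) (char_dvd A h4) i, rfl⟩
  have hS' := hS.image (algebraMap F K)
  generalize algebraMap F K '' S = S' at h2 hS'
  have h3 : ∀ (g : D.grp K) i, g.1.1.charpoly.coeff i ∈ S' := fun g i => by
    have key : ∀ g : D.grp K, MvPolynomial.eval (fun e => g.1.1 e.1 e.2)
        (∏ s ∈ hS'.toFinset, ((charpoly.univ K (Fin D.n)).coeff i - MvPolynomial.C s)) = 0 ↔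
        g.1.1.charpoly.coeff i ∈ S' := fun g => by
      have e : MvPolynomial.eval (fun e => g.1.1 e.1 e.2) ((charpoly.univ K (Fin D.n)).coeff i) =
          g.1.1.charpoly.coeff i :=
        charpoly.univ_coeff_eval₂Hom (Fin D.n) (RingHom.id K) (fun e => g.1.1 e.1 e.2) i
      simp only [map_prod, map_sub, MvPolynomial.eval_C, e, Finset.prod_eq_zero_iff, sub_eq_zero,
        Set.Finite.mem_toFinset, exists_eq_right']
    exact (key g).1 (den _ (fun x hx => (key x).2 (h2 x hx i)) g)
  let i : Fin D.r := ⟨0, (Chev.R_ok D).pos⟩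
  have h4 : ∀ a, D.μ i a = 0 := fun a =>
    zpow_fin (bUnion_roots_finite (RingHom.id K) D.n hS') fun t => by
      simp only [Set.mem_iUnion]
      refine ⟨_, ⟨by simp, h3 ((GG D K).h i t)⟩, ?_⟩
      rw [Finset.mem_coe, Multiset.mem_toFinset, Polynomial.map_id,
        mem_roots (charpoly_monic _).ne_zero,
        show ((GG D K).h i t).1.1 = diagonal fun b => ((t ^ D.μ i b : Kˣ) : K) from rfl,
        charpoly_diagonal, IsRoot, eval_prod]
      exact Finset.prod_eq_zero (Finset.mem_univ a) (by simp)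
  have h5 : (Pi.single i 1 : Fin D.r → ℤ) ∈ LinearMap.ker (LinearMap.proj (R := ℤ) i) :=
    (Submodule.span_le.2 (by rintro _ ⟨a, rfl⟩; exact h4 a) : _ ≤ _) (hD ▸ Submodule.mem_top)
  simp at h5

end Vale.Agent.P011UNC
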